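import Mathlib
import Vale.Agent.Lib.P201.H7.ZeroDiv

/-!
# P201 (Kaplansky's zero-divisor conjecture): elements supported in a coset of an abelian subgroup

For every field `K`, every torsion-free group `G` and all `a b` in the group algebra `K[G]`: if the
quotients `g⁻¹ * h` of elements `g, h` of the support of `a` pairwise commute (equivalently, the
support of `a` lies in a left coset of a commutative subgroup; this holds whenever the support of
`a` has at most two elements), then `a * b = 0` implies `a = 0` or `b = 0`.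
-/

namespace Vale.Agent.Results.P201.H7_AbelianSupport

theorem result (K G : Type*) [Field K] [Group G]
    (htf : ∀ g : G, ∀ n : ℕ, 0 < n → g ^ n = 1 → g = 1)
    (a b : MonoidAlgebra K G)
    (hc : ∀ g₁ ∈ a.coeff.support, ∀ g₂ ∈ a.coeff.support, ∀ g₃ ∈ a.coeff.support,
      ∀ g₄ ∈ a.coeff.support, (g₁⁻¹ * g₂) * (g₃⁻¹ * g₄) = (g₃⁻¹ * g₄) * (g₁⁻¹ * g₂))
    (hab : a * b = 0) : a = 0 ∨ b = 0 :=
  Vale.Agent.Lib.P201.H7.eq_zero_of_commute_support htf a b hc hab

end Vale.Agent.Results.P201.H7_AbelianSupport
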