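import Mathlib
import Vale.Agent.Lib.P201.H7.Coset

/-!
# P201 (Kaplansky's zero-divisor conjecture): elements supported in a coset of a subgroup
whose group algebra is a domain

Let `K` be a field, `G` any group and `H` a subgroup of `G`.  If the group algebra `K[H]` has
no zero divisors (for instance if `H` has the unique-product property), then no nonzero
element `a` of `K[G]` whose support lies in a left coset `g₀ H` is a left zero divisor:
`a * b = 0` implies `a = 0` or `b = 0`, for every `b` in `K[G]`.

Proof: after a left translation the support of `a` lies in `H`.  Split `b` along the right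
cosets `H x`; since `a` is supported in `H`, the product `a * b` splits in the same way, so
`a` annihilates each piece, and each piece is a right translate of an element supported in
`H`.  The hand-in `H7_AbelianSupport` is the case of the subgroup generated by pairwise
commuting support quotients in a torsion-free group.
-/

namespace Vale.Agent.Results.P201.H7_DomainSubgroup

theorem result (K G : Type*) [Field K] [Group G] (H : Subgroup G) :
    ((∀ x y : MonoidAlgebra K H, x * y = 0 → x = 0 ∨ y = 0) →
      ∀ (g₀ : G) (a b : MonoidAlgebra K G), (∀ g ∈ a.coeff.support, g₀⁻¹ * g ∈ H) →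
        a * b = 0 → a = 0 ∨ b = 0) ∧
    (UniqueProds H →
      ∀ (g₀ : G) (a b : MonoidAlgebra K G), (∀ g ∈ a.coeff.support, g₀⁻¹ * g ∈ H) →
        a * b = 0 → a = 0 ∨ b = 0) := by
  refine ⟨fun hH g₀ a b hsupp hab =>
    Vale.Agent.Lib.P201.H7.eq_zero_of_coset_support H hH g₀ a b hsupp hab, ?_⟩
  intro hU g₀ a b hsupp hab
  exact Vale.Agent.Lib.P201.H7.eq_zero_of_coset_support H
    (fun x y hxy => mul_eq_zero.mp hxy) g₀ a b hsupp hab

end Vale.Agent.Results.P201.H7_DomainSubgroup
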